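import Vale.Agent.P352.HM.K
import Vale.Agent.P352.HM.P
import Vale.Agent.P352.HM.C
import Vale.Agent.P352.HM.E
import Vale.Agent.P352.HM.U
import Vale.Agent.P352.HM.Pe
import Vale.Agent.P352.HM.A3
import Vale.Agent.P352.HM.A4
import Vale.Agent.P352.HM.A5
import Vale.Agent.P352.HM.A6
import Vale.Agent.P352.HM.H23.A12
import Vale.Agent.P352.HM.H118.L
import Vale.Agent.P352.HM.H228.I
import Vale.Agent.P352.HM.Lo

/-!
# P352 HM: the statements of the blocks without hypotheses
-/

set_option linter.all false

noncomputable section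

open MeasureTheory Filter Topology

namespace Vale.Agent.P352.HM

open GF (Ix V Fn Fld Theory IsLor bas eta o sim)
open H246 H496 H755 H15

variable {D : Type*} [NormedAddCommGroup D] [InnerProductSpace ℂ D]

/-- EStmt -/
theorem estmt : EStmt D := eblock H23.a1 H23.a2 a5 a6

/-- IStmt -/
theorem istmt : IStmt D := H228.iblock estmt a4

/-- PStmt -/
theorem pstmt : PStmt D := pblock estmt H23.a1 H23.a2 a5 pe

/-- HStmt: the theorem on half-sided modular inclusions -/
theorem hstmt : HStmt D := hblock pstmt istmt a3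

/-- LStmt -/
theorem lstmt : LStmt D := H118.lblock hstmt

/-- UStmt: uniqueness of the modular Hamiltonian -/
theorem ustmt : UStmt D := ublock istmt

/-- CjStmt: conjugates of the modular objects -/
theorem cjstmt : CjStmt D := fun _ _ _ _ _ _ _ h i => h.conj i.adj i.vw i.wv i.vac

variable {Q : Theory D} {A : (V → V) → D → D} {alg : Set V → Set (D → D)}
  {v : V → V → ℝ → ℝ → D → D} {j k : V → V → ℝ → D → D}

/-- the modular Hamiltonians are affine functions of `c` -/
theorem k_lin (h : MNet Q A alg v j k) {a b : V} (ha : IsNull a) (hb : IsNull b)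
    (hab : GF.mdot a b = 1) {c : ℝ} (hc : 0 ≤ c) (x : D) :
    k a b c x = k a b 0 x + (c : ℂ) • (k a b 1 x - k a b 0 x) := by
  rcases hc.eq_or_lt with hc | hc
  · rw [← hc]; simp
  · exact klin h ha hb hab ustmt cjstmt lstmt hc x

end Vale.Agent.P352.HM

end
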